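import Vale.Agent.P314.Gen

universe u

open Vale.Agent.P314

/-- For every field `F` and every binary encoding of its elements there are hitting sets
`H n s` for noncommutative formulas of size at most `s` in `n` variables, and a deterministic
Turing machine that prints the code of `H n s` on input `1^n 0 1^s` in polynomial time. -/
theorem Vale.Agent.Results.P314.Formulas.result (F : Type u) [Field F] (enc : F → List Bool) :
    ∃ H : (n s : ℕ) → List (Point F n),
      (∀ n s, IsHittingSet s (H n s)) ∧
      Nonempty (Turing.TM2ComputableInPolyTime encodeInput id
        fun x : ℕ × ℕ => encodeSet enc (H x.1 x.2)) :=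
  ⟨fun n s => [pt F n s], pt_isHittingSet F, gen_polyTime enc⟩
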