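import Vale.Agent.P314.GenABP

universe u

open Vale.Agent.P314

/-- For every field and every binary encoding of its elements, a deterministic polynomial-time
Turing machine prints, on input `1^n 0 1^s`, a single tuple of zero-one matrices that hits all
noncommutative formulas of size at most `s` and all branching programs with at most `s`
vertices. -/
theorem Vale.Agent.Results.P314.FormulasAndABPs.result (F : Type u) [Field F]
    (enc : F → List Bool) :
    ∃ H : (n s : ℕ) → List (Point F n),
      (∀ n s, IsHittingSet s (H n s)) ∧ (∀ n s, IsHittingSetABP s (H n s)) ∧
      (∀ n s, (H n s).length = 1) ∧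
      Nonempty (Turing.TM2ComputableInPolyTime encodeInput id
        fun x : ℕ × ℕ => encodeSet enc (H x.1 x.2)) :=
  ⟨fun n s => [pt F n s], pt_isHittingSet F, pt_isHittingSetABP F, fun _ _ => rfl,
    gen_polyTime enc⟩
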